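import Vale.Agent.P065.UB.H822.Area

/-!
# P065, upper bound, block RUN0: the abstract core (helper992)

`f`, `g` chart coordinates, `l = b f + c g + e > 0` (`= const / v`), `D` = triangle of the original
plane up to a constant. If every square of side `d` contains few points, then after dropping the
points with small `l` every dense subset has a fat triangle, in the original plane too.
-/

set_option autoImplicit false

namespace Vale.Agent.P065.UB.H992

open Finset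
open Vale.Agent.P065.UB.H822 (det3 few_squares)

theorem det3_left {b c e x1 y1 x2 y2 x3 y3 l1 l2 l3 : ℝ} (h1 : l1 = b * x1 + c * y1 + e)
    (h2 : l2 = b * x2 + c * y2 + e) (h3 : l3 = b * x3 + c * y3 + e) :
    b * det3 x1 y1 x2 y2 x3 y3 = det3 l1 y1 l2 y2 l3 y3 := by
  rw [h1, h2, h3]; unfold det3; ring

theorem det3_right {b c e x1 y1 x2 y2 x3 y3 l1 l2 l3 : ℝ} (h1 : l1 = b * x1 + c * y1 + e)
    (h2 : l2 = b * x2 + c * y2 + e) (h3 : l3 = b * x3 + c * y3 + e) :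
    c * det3 x1 y1 x2 y2 x3 y3 = det3 x1 l1 x2 l2 x3 l3 := by
  rw [h1, h2, h3]; unfold det3; ring

theorem abs_det3_le {x1 y1 x2 y2 x3 y3 A B : ℝ} (hx2 : |x2 - x1| ≤ A) (hx3 : |x3 - x1| ≤ A)
    (hy2 : |y2 - y1| ≤ B) (hy3 : |y3 - y1| ≤ B) : |det3 x1 y1 x2 y2 x3 y3| ≤ 2 * (A * B) := by
  have hA : 0 ≤ A := (abs_nonneg _).trans hx2
  unfold det3
  have h1 : |(x2 - x1) * (y3 - y1)| ≤ A * B := by
    rw [abs_mul]; exact mul_le_mul hx2 hy3 (abs_nonneg _) hA
  have h2 : |(x3 - x1) * (y2 - y1)| ≤ A * B := by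
    rw [abs_mul]; exact mul_le_mul hx3 hy2 (abs_nonneg _) hA
  calc _ ≤ |(x2 - x1) * (y3 - y1)| + |(x3 - x1) * (y2 - y1)| := abs_sub _ _
    _ ≤ _ := by linarith

/-- a strip `0 < l < τ lmax` of a box in which `l` varies by more than `lmax / 2` is thin -/
theorem thin {α : Type*} (P : Finset α) (f g l : α → ℝ) {r τ b c e lm : ℝ} (hr : 0 < r)
    (hτ : 0 < τ)
    (hbf : ∀ p ∈ P, ∀ q ∈ P, |f q - f p| ≤ r) (hbg : ∀ p ∈ P, ∀ q ∈ P, |g q - g p| ≤ r)
    (hl : ∀ p ∈ P, l p = b * f p + c * g p + e) {ps z0 : α} (hps : ps ∈ P) (hz0 : z0 ∈ P)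
    (hlm : l ps = lm) (hlm0 : 0 < lm) (hz : l z0 ≤ lm / 2)
    {p q z : α} (hp : p ∈ P) (hq : q ∈ P) (hzP : z ∈ P) (h1 : 0 < l p) (h2 : 0 < l q)
    (h3 : 0 < l z) (h1' : l p < τ * lm) (h2' : l q < τ * lm) (h3' : l z < τ * lm) :
    |det3 (f p) (g p) (f q) (g q) (f z) (g z)| ≤ 8 * τ * r ^ 2 := by
  have hvar : lm / 2 ≤ (|b| + |c|) * r := by
    have e1 : lm / 2 ≤ l ps - l z0 := by rw [hlm]; linarith
    have e2 : l ps - l z0 = b * (f ps - f z0) + c * (g ps - g z0) := by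
      rw [hl ps hps, hl z0 hz0]; ring
    have e3 : b * (f ps - f z0) ≤ |b| * r :=
      (le_abs_self _).trans (by
        rw [abs_mul]; exact mul_le_mul_of_nonneg_left (hbf z0 hz0 ps hps) (abs_nonneg _))
    have e4 : c * (g ps - g z0) ≤ |c| * r :=
      (le_abs_self _).trans (by
        rw [abs_mul]; exact mul_le_mul_of_nonneg_left (hbg z0 hz0 ps hps) (abs_nonneg _))
    linarith
  have hlq : |l q - l p| ≤ τ * lm := by rw [abs_le]; constructor <;> linarith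
  have hlz : |l z - l p| ≤ τ * lm := by rw [abs_le]; constructor <;> linarith
  rcases le_total |c| |b| with hc | hc
  · have hb : 0 < |b| := by
      by_contra hcon
      have hb0 : |b| = 0 := le_antisymm (not_lt.1 hcon) (abs_nonneg _)
      have hc0 : |c| = 0 := le_antisymm (hc.trans hb0.le) (abs_nonneg _)
      rw [hb0, hc0] at hvar
      linarith
    have e5 : lm ≤ 4 * |b| * r := by nlinarith
    have e6 : |b| * |det3 (f p) (g p) (f q) (g q) (f z) (g z)| ≤ |b| * (8 * τ * r ^ 2) := by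
      rw [← abs_mul, det3_left (hl p hp) (hl q hq) (hl z hzP)]
      refine (abs_det3_le hlq hlz (hbg p hp q hq) (hbg p hp z hzP)).trans ?_
      have : τ * lm ≤ τ * (4 * |b| * r) := mul_le_mul_of_nonneg_left e5 hτ.le
      nlinarith [mul_le_mul_of_nonneg_right this hr.le]
    exact le_of_mul_le_mul_left e6 hb
  · have hb : 0 < |c| := by
      by_contra hcon
      have hb0 : |c| = 0 := le_antisymm (not_lt.1 hcon) (abs_nonneg _)
      have hc0 : |b| = 0 := le_antisymm (hc.trans hb0.le) (abs_nonneg _)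
      rw [hb0, hc0] at hvar
      linarith
    have e5 : lm ≤ 4 * |c| * r := by nlinarith
    have e6 : |c| * |det3 (f p) (g p) (f q) (g q) (f z) (g z)| ≤ |c| * (8 * τ * r ^ 2) := by
      rw [← abs_mul, det3_right (hl p hp) (hl q hq) (hl z hzP)]
      refine (abs_det3_le (hbf p hp q hq) (hbf p hp z hzP) hlq hlz).trans ?_
      have : τ * lm ≤ τ * (4 * |c| * r) := mul_le_mul_of_nonneg_left e5 hτ.le
      nlinarith [mul_le_mul_of_nonneg_right this hr.le]
    exact le_of_mul_le_mul_left e6 hb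

open Classical in
/-- **NCCORE** -/
theorem nc_core {α : Type*} (P : Finset α) (f g l : α → ℝ) (D : α → α → α → ℝ)
    {d r μ A0 τ κ M0 b c e : ℝ} (hd : 0 < d) (hr : 0 < r) (hμ : 0 ≤ μ) (hA : 0 < A0)
    (hτ0 : 0 < τ) (hτ : τ ≤ 1 / 2) (hκ : 0 < κ)
    (hbf : ∀ p ∈ P, ∀ q ∈ P, |f q - f p| ≤ r) (hbg : ∀ p ∈ P, ∀ q ∈ P, |g q - g p| ≤ r)
    (hsq : ∀ s t : ℝ,
      (#{z ∈ P | s ≤ f z ∧ f z ≤ s + d ∧ t ≤ g z ∧ g z ≤ t + d} : ℝ) ≤ μ)
    (hl : ∀ p ∈ P, l p = b * f p + c * g p + e) (hl0 : ∀ p ∈ P, 0 < l p)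
    (hD : ∀ p ∈ P, ∀ q ∈ P, ∀ z ∈ P, |D p q z| * (l p * l q * l z) =
      κ * |det3 (f p) (g p) (f q) (g q) (f z) (g z)|)
    (hM : 24 * μ * (A0 / d ^ 2 + r / d + 1) < M0) (hτA : 8 * τ * r ^ 2 ≤ A0) :
    ∃ S ⊆ P, (#(P \ S) : ℝ) < M0 ∧ ∃ al : ℝ, 0 < al ∧
      (∀ p ∈ S, ∀ q ∈ S, ∀ z ∈ S, |D p q z| ≤ al) ∧
      ∀ T ⊆ S, M0 ≤ #T → ∃ p ∈ T, ∃ q ∈ T, ∃ z ∈ T,
        A0 * τ ^ 3 / (2 * r ^ 2) * al ≤ |D p q z| := by
  -- LEMMA S
  have hS : ∀ T ⊆ P, M0 ≤ #T → ∃ p ∈ T, ∃ q ∈ T, ∃ z ∈ T,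
      A0 < |det3 (f p) (g p) (f q) (g q) (f z) (g z)| := by
    intro T hT hc
    by_contra hcon
    push Not at hcon
    have h1 := few_squares T f g (d := d) (r := r) (al := A0) ⌊μ⌋₊ hd hA.le hr.le
      (fun p hp q hq => hbf p (hT hp) q (hT hq)) (fun p hp q hq => hbg p (hT hp) q (hT hq))
      (fun s t => by
        apply Nat.le_floor
        refine le_trans ?_ (hsq s t)
        exact_mod_cast card_le_card (filter_subset_filter _ hT))
      (fun p hp q hq z hz => hcon p hp q hq z hz)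
    have h2 : (⌊μ⌋₊ : ℝ) ≤ μ := Nat.floor_le hμ
    have h3 : 0 ≤ A0 / d ^ 2 + r / d + 1 := by positivity
    have h4 : 24 * (⌊μ⌋₊ : ℝ) * (A0 / d ^ 2 + r / d + 1) ≤ 24 * μ * (A0 / d ^ 2 + r / d + 1) :=
      mul_le_mul_of_nonneg_right (by linarith) h3
    linarith
  have hM0 : 0 < M0 := by
    have : 0 ≤ 24 * μ * (A0 / d ^ 2 + r / d + 1) := by positivity
    linarith
  rcases P.eq_empty_or_nonempty with rfl | hP
  · refine ⟨∅, Subset.rfl, by simpa using hM0, 1, one_pos, by simp, ?_⟩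
    intro T hT hc
    rw [subset_empty.1 hT] at hc
    simp only [card_empty, Nat.cast_zero] at hc
    linarith
  obtain ⟨ps, hps, hmax⟩ := Finset.exists_max_image P l hP
  set lm := l ps with hlm
  have hlm0 : 0 < lm := hl0 ps hps
  set S : Finset α := {p ∈ P | τ * lm ≤ l p} with hSdef
  have hSP : S ⊆ P := filter_subset _ _
  refine ⟨S, hSP, ?_, κ * (2 * r ^ 2) / (τ * lm) ^ 3, by positivity, ?_, ?_⟩
  · by_contra hcon
    push Not at hcon
    obtain ⟨p, hp, q, hq, z, hz, hpqz⟩ := hS (P \ S) sdiff_subset hcon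
    have hmem : ∀ x ∈ P \ S, x ∈ P ∧ l x < τ * lm := by
      intro x hx
      rw [mem_sdiff, hSdef, mem_filter, not_and, not_le] at hx
      exact ⟨hx.1, hx.2 hx.1⟩
    have h1 := thin P f g l hr hτ0 hbf hbg hl hps (hmem p hp).1 hlm.symm hlm0
      (by have := (hmem p hp).2; nlinarith) (hmem p hp).1 (hmem q hq).1 (hmem z hz).1
      (hl0 p (hmem p hp).1) (hl0 q (hmem q hq).1) (hl0 z (hmem z hz).1)
      (hmem p hp).2 (hmem q hq).2 (hmem z hz).2
    linarith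
  · intro p hp q hq z hz
    have hp' := mem_filter.1 hp
    have hq' := mem_filter.1 hq
    have hz' := mem_filter.1 hz
    have h0 : 0 < τ * lm := by positivity
    have h1 : (τ * lm) ^ 3 ≤ l p * l q * l z := by
      have h2 : (τ * lm) * (τ * lm) ≤ l p * l q :=
        mul_le_mul hp'.2 hq'.2 h0.le (h0.le.trans hp'.2)
      calc (τ * lm) ^ 3 = (τ * lm) * (τ * lm) * (τ * lm) := by ring
        _ ≤ l p * l q * l z :=
          mul_le_mul h2 hz'.2 h0.le (mul_nonneg (h0.le.trans hp'.2) (h0.le.trans hq'.2))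
    have h3 := hD p hp'.1 q hq'.1 z hz'.1
    have h4 : |det3 (f p) (g p) (f q) (g q) (f z) (g z)| ≤ 2 * (r * r) :=
      abs_det3_le (hbf p hp'.1 q hq'.1) (hbf p hp'.1 z hz'.1) (hbg p hp'.1 q hq'.1)
        (hbg p hp'.1 z hz'.1)
    rw [le_div_iff₀ (by positivity)]
    calc |D p q z| * (τ * lm) ^ 3 ≤ |D p q z| * (l p * l q * l z) :=
          mul_le_mul_of_nonneg_left h1 (abs_nonneg _)
      _ = κ * |det3 (f p) (g p) (f q) (g q) (f z) (g z)| := h3
      _ ≤ κ * (2 * (r * r)) := mul_le_mul_of_nonneg_left h4 hκ.le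
      _ = κ * (2 * r ^ 2) := by ring
  · intro T hT hc
    obtain ⟨p, hp, q, hq, z, hz, hpqz⟩ := hS T (hT.trans hSP) hc
    refine ⟨p, hp, q, hq, z, hz, ?_⟩
    have hpP := hSP (hT hp)
    have hqP := hSP (hT hq)
    have hzP := hSP (hT hz)
    have h1 : l p * l q * l z ≤ lm ^ 3 := by
      have h2 : l p * l q ≤ lm * lm :=
        mul_le_mul (hmax p hpP) (hmax q hqP) (hl0 q hqP).le hlm0.le
      calc l p * l q * l z ≤ lm * lm * lm :=
            mul_le_mul h2 (hmax z hzP) (hl0 z hzP).le (by positivity)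
        _ = lm ^ 3 := by ring
    have h3 := hD p hpP q hqP z hzP
    have h5 : κ * A0 ≤ |D p q z| * lm ^ 3 := by
      calc κ * A0 ≤ κ * |det3 (f p) (g p) (f q) (g q) (f z) (g z)| :=
            mul_le_mul_of_nonneg_left hpqz.le hκ.le
        _ = |D p q z| * (l p * l q * l z) := h3.symm
        _ ≤ |D p q z| * lm ^ 3 := mul_le_mul_of_nonneg_left h1 (abs_nonneg _)
    have h6 : A0 * τ ^ 3 / (2 * r ^ 2) * (κ * (2 * r ^ 2) / (τ * lm) ^ 3) = κ * A0 / lm ^ 3 := by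
      field_simp
    rw [h6, div_le_iff₀ (by positivity)]
    exact h5

open Classical in
/-- **NCCORE**, helper650's form: LEMMA S is a hypothesis -/
theorem nccore {α : Type*} (P : Finset α) (f g : α → ℝ) {x0 y0 r b c d k0 A0 τ N M : ℝ}
    (hr : 0 < r) (hbox : ∀ p ∈ P, |f p - x0| ≤ 2 * r ∧ |g p - y0| ≤ 2 * r)
    (hl0 : ∀ p ∈ P, 0 < b * f p + c * g p + d)
    (hS : ∀ T ⊆ P, N ≤ M * #T → ∃ p ∈ T, ∃ q ∈ T, ∃ s ∈ T,
      A0 ≤ |det3 (f p) (g p) (f q) (g q) (f s) (g s)|)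
    (hτ0 : 0 < τ) (hτ : τ ≤ 1 / 2) (hτA : 128 * τ * r ^ 2 < A0) (hk0 : 0 < k0) (hN : 0 < N)
    (hM : 0 < M) :
    ∃ S ⊆ P, M * #(P \ S) < N ∧ ∃ al : ℝ, 0 < al ∧
      (∀ p ∈ S, ∀ q ∈ S, ∀ s ∈ S, k0 * |det3 (f p) (g p) (f q) (g q) (f s) (g s)| /
        ((b * f p + c * g p + d) * (b * f q + c * g q + d) * (b * f s + c * g s + d)) ≤ al) ∧
      ∀ T ⊆ S, N ≤ M * #T → ∃ p ∈ T, ∃ q ∈ T, ∃ s ∈ T,
        A0 * τ ^ 3 / (32 * r ^ 2) * al ≤ k0 * |det3 (f p) (g p) (f q) (g q) (f s) (g s)| /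
        ((b * f p + c * g p + d) * (b * f q + c * g q + d) * (b * f s + c * g s + d)) := by
  have hA : 0 < A0 := lt_of_le_of_lt (by positivity) hτA
  have h4r : 0 < 4 * r := by linarith
  have hbf : ∀ p ∈ P, ∀ q ∈ P, |f q - f p| ≤ 4 * r := by
    intro p hp q hq
    have h1 := abs_le.1 (hbox p hp).1
    have h2 := abs_le.1 (hbox q hq).1
    rw [abs_le]; constructor <;> linarith [h1.1, h1.2, h2.1, h2.2]
  have hbg : ∀ p ∈ P, ∀ q ∈ P, |g q - g p| ≤ 4 * r := by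
    intro p hp q hq
    have h1 := abs_le.1 (hbox p hp).2
    have h2 := abs_le.1 (hbox q hq).2
    rw [abs_le]; constructor <;> linarith [h1.1, h1.2, h2.1, h2.2]
  rcases P.eq_empty_or_nonempty with rfl | hP
  · refine ⟨∅, Subset.rfl, by simpa using hN, 1, one_pos, by simp, ?_⟩
    intro T hT hc
    rw [subset_empty.1 hT] at hc
    simp only [card_empty, Nat.cast_zero, mul_zero] at hc
    linarith
  set l : α → ℝ := fun p => b * f p + c * g p + d with hl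
  have hll : ∀ p ∈ P, l p = b * f p + c * g p + d := fun p _ => rfl
  obtain ⟨ps, hps, hmax⟩ := Finset.exists_max_image P l hP
  set lm := l ps with hlm
  have hlm0 : 0 < lm := hl0 ps hps
  set S : Finset α := {p ∈ P | τ * lm ≤ l p} with hSdef
  have hSP : S ⊆ P := filter_subset _ _
  refine ⟨S, hSP, ?_, k0 * (32 * r ^ 2) / (τ * lm) ^ 3, by positivity, ?_, ?_⟩
  · by_contra hcon
    push Not at hcon
    obtain ⟨p, hp, q, hq, z, hz, hpqz⟩ := hS (P \ S) sdiff_subset hcon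
    have hmem : ∀ x ∈ P \ S, x ∈ P ∧ l x < τ * lm := by
      intro x hx
      rw [mem_sdiff, hSdef, mem_filter, not_and, not_le] at hx
      exact ⟨hx.1, hx.2 hx.1⟩
    have h1 := thin P f g l h4r hτ0 hbf hbg hll hps (hmem p hp).1 hlm.symm hlm0
      (by have := (hmem p hp).2; nlinarith) (hmem p hp).1 (hmem q hq).1 (hmem z hz).1
      (hl0 p (hmem p hp).1) (hl0 q (hmem q hq).1) (hl0 z (hmem z hz).1)
      (hmem p hp).2 (hmem q hq).2 (hmem z hz).2
    have h2 : 8 * τ * (4 * r) ^ 2 = 128 * τ * r ^ 2 := by ring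
    rw [h2] at h1
    linarith
  · intro p hp q hq z hz
    have hp' := mem_filter.1 hp
    have hq' := mem_filter.1 hq
    have hz' := mem_filter.1 hz
    have h0 : 0 < τ * lm := by positivity
    have hp0 : 0 < l p := hl0 p hp'.1
    have hq0 : 0 < l q := hl0 q hq'.1
    have hz0 : 0 < l z := hl0 z hz'.1
    have h1 : (τ * lm) ^ 3 ≤ l p * l q * l z := by
      have h2 : (τ * lm) * (τ * lm) ≤ l p * l q :=
        mul_le_mul hp'.2 hq'.2 h0.le (h0.le.trans hp'.2)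
      calc (τ * lm) ^ 3 = (τ * lm) * (τ * lm) * (τ * lm) := by ring
        _ ≤ l p * l q * l z :=
          mul_le_mul h2 hz'.2 h0.le (mul_nonneg (h0.le.trans hp'.2) (h0.le.trans hq'.2))
    have h4 : |det3 (f p) (g p) (f q) (g q) (f z) (g z)| ≤ 2 * ((4 * r) * (4 * r)) :=
      abs_det3_le (hbf p hp'.1 q hq'.1) (hbf p hp'.1 z hz'.1) (hbg p hp'.1 q hq'.1)
        (hbg p hp'.1 z hz'.1)
    have h5 : 0 < l p * l q * l z := by positivity
    change k0 * |det3 (f p) (g p) (f q) (g q) (f z) (g z)| / (l p * l q * l z) ≤ _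
    rw [div_le_div_iff₀ h5 (by positivity)]
    have h6 : k0 * |det3 (f p) (g p) (f q) (g q) (f z) (g z)| ≤ k0 * (32 * r ^ 2) :=
      mul_le_mul_of_nonneg_left (by linarith) hk0.le
    exact mul_le_mul h6 h1 (by positivity) (by positivity)
  · intro T hT hc
    obtain ⟨p, hp, q, hq, z, hz, hpqz⟩ := hS T (hT.trans hSP) hc
    refine ⟨p, hp, q, hq, z, hz, ?_⟩
    have hpP := hSP (hT hp)
    have hqP := hSP (hT hq)
    have hzP := hSP (hT hz)
    have hp0 : 0 < l p := hl0 p hpP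
    have hq0 : 0 < l q := hl0 q hqP
    have hz0 : 0 < l z := hl0 z hzP
    have h1 : l p * l q * l z ≤ lm ^ 3 := by
      have h2 : l p * l q ≤ lm * lm :=
        mul_le_mul (hmax p hpP) (hmax q hqP) (hl0 q hqP).le hlm0.le
      calc l p * l q * l z ≤ lm * lm * lm :=
            mul_le_mul h2 (hmax z hzP) (hl0 z hzP).le (by positivity)
        _ = lm ^ 3 := by ring
    have h6 : A0 * τ ^ 3 / (32 * r ^ 2) * (k0 * (32 * r ^ 2) / (τ * lm) ^ 3) =
        k0 * A0 / lm ^ 3 := by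
      field_simp
    have h5 : 0 < l p * l q * l z := by positivity
    change A0 * τ ^ 3 / (32 * r ^ 2) * (k0 * (32 * r ^ 2) / (τ * lm) ^ 3) ≤
      k0 * |det3 (f p) (g p) (f q) (g q) (f z) (g z)| / (l p * l q * l z)
    rw [h6, div_le_div_iff₀ (by positivity) h5]
    exact mul_le_mul (mul_le_mul_of_nonneg_left hpqz hk0.le) h1 h5.le (by positivity)

end Vale.Agent.P065.UB.H992
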