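import Vale.Agent.P065.UB.Mach.Defs
import Vale.Agent.P065.UB.NormDrop.Defs

/-!
# P065, upper bound, block RUN0: areas in the chart, active points (helper992)

* `dt_shear`, `det_chart_abs`, `det_id`: the area of a triangle of the plane and of its image under
  `(fX, fY)`;
* `yy`: `1 / |chV|`, an affine function of `(fX, fY)`;
* `act`: a used point of a `Mach` lies in at least `lam / K ^ 2` rich sets; `act_sum`.
-/

set_option autoImplicit false

namespace Vale.Agent.P065.UB.H992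

open Finset Vale.Agent.P065.UB Vale.Agent.P065.H183 Vale.Agent.P065.UB.H415
open Vale.Agent.P065.UB.H822 (det3 det_chart)
open Vale.Agent.P065.UB.NormDrop (dt)
open Vale.Agent.P065.UB.H616
open Vale.Agent.P065.UB.MC

/-- translation and shear do not change the area -/
theorem dt_shear (m0 : ℝ) (c p q z : Pt) :
    dt p q z = det3 (chU c p) (chV m0 c p) (chU c q) (chV m0 c q) (chU c z) (chV m0 c z) := by
  unfold dt det3 chU chV ht
  ring

/-- `1 / |V|` -/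
noncomputable def yy (m0 : ℝ) (c q : Pt) : ℝ := 1 / |chV m0 c q|

theorem yy_pos {m0 : ℝ} {c q : Pt} (h : chV m0 c q ≠ 0) : 0 < yy m0 c q := by
  unfold yy
  exact one_div_pos.2 (abs_pos.2 h)

/-- two class functions, second one with a factor -/
theorem det_cf (m0 : ℝ) (c o1 o2 p q z : Pt) (ρ : ℝ) :
    det3 (cf m0 c o1 p) (ρ * cf m0 c o2 p) (cf m0 c o1 q) (ρ * cf m0 c o2 q) (cf m0 c o1 z)
      (ρ * cf m0 c o2 z) =
      ρ * (o1.1 - o2.1) * det3 (chX m0 c p) (chY m0 c p) (chX m0 c q) (chY m0 c q)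
        (chX m0 c z) (chY m0 c z) := by
  unfold det3 cf chU
  ring

/-- **areas** -/
theorem det_id {m0 : ℝ} {c p q z : Pt} (o1 o2 : Pt) (ρ : ℝ) (hp : chV m0 c p ≠ 0)
    (hq : chV m0 c q ≠ 0) (hz : chV m0 c z ≠ 0) :
    |dt p q z| * (yy m0 c p * yy m0 c q * yy m0 c z) * (|ρ| * |o2.1 - o1.1|) =
      |det3 (cf m0 c o1 p) (ρ * cf m0 c o2 p) (cf m0 c o1 q) (ρ * cf m0 c o2 q) (cf m0 c o1 z)
        (ρ * cf m0 c o2 z)| := by
  rw [det_cf, dt_shear m0 c, det_chart hp hq hz]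
  have e1 : (0 : ℝ) < |chV m0 c p| := abs_pos.2 hp
  have e2 : (0 : ℝ) < |chV m0 c q| := abs_pos.2 hq
  have e3 : (0 : ℝ) < |chV m0 c z| := abs_pos.2 hz
  change |-(chV m0 c p * chV m0 c q * chV m0 c z * det3 (chX m0 c p) (chY m0 c p) (chX m0 c q)
    (chY m0 c q) (chX m0 c z) (chY m0 c z))| * _ * _ = _
  rw [abs_neg, abs_mul, abs_mul, abs_mul, abs_mul, abs_mul, abs_sub_comm o1.1 o2.1]
  unfold yy
  field_simp

/-- the area in the coordinates of a `Mach` -/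
theorem det_mach {m0 : ℝ} {c p q z : Pt} (o1 o2 o3 : Pt) (hp : chV m0 c p ≠ 0)
    (hq : chV m0 c q ≠ 0) (hz : chV m0 c z ≠ 0) :
    |dt p q z| * (yy m0 c p * yy m0 c q * yy m0 c z) * (|cc o1 o2 o3| * |o2.1 - o1.1|) =
      |det3 (fX m0 c o1 p) (fY m0 c o1 o2 o3 p) (fX m0 c o1 q) (fY m0 c o1 o2 o3 q)
        (fX m0 c o1 z) (fY m0 c o1 o2 o3 z)| :=
  det_id o1 o2 (cc o1 o2 o3) hp hq hz

section mach

variable {K K' lam : ℝ} {Q : Finset Pt} {W : Finset ℕ} {I : ℕ → Set ℝ} {R : ℕ → Finset Pt}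
  {c : Pt} {w0 : ℕ} {m0 : ℝ} {o1 o2 o3 : Pt} {F : Finset (Pt × Pt)} {Wd : Pt × Pt → ℕ} {δ : ℝ}

/-- `ρ = cc o1 o2 o3 ≠ 0` -/
theorem cc_ne (hV : JView K' lam Q W I R) (h : Mach0 K lam Q W I R c w0 m0 o1 o2 o3 F Wd δ)
    {e : Pt × Pt} (he : e ∈ F) : cc o1 o2 o3 ≠ 0 := by
  unfold cc
  exact div_ne_zero (sub_ne_zero.2 (h.x13 hV he).symm) (sub_ne_zero.2 (h.x23 hV he))

/-- `1 / |V|` is a linear function of `(fX, fY)`; `τ = ± (o2.1 - o1.1)` -/
theorem yy_lin (hV : JView K' lam Q W I R) (h : Mach0 K lam Q W I R c w0 m0 o1 o2 o3 F Wd δ) :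
    ∃ τ : ℝ, |τ| = |o2.1 - o1.1| ∧ ∀ e ∈ F,
      fX m0 c o1 e.2 - fY m0 c o1 o2 o3 e.2 / cc o1 o2 o3 = τ * yy m0 c e.2 := by
  have key : ∀ e ∈ F, fX m0 c o1 e.2 - fY m0 c o1 o2 o3 e.2 / cc o1 o2 o3 =
      (o2.1 - o1.1) * chY m0 c e.2 := by
    intro e he
    have h1 := cc_ne hV h he
    unfold fX fY cf chU
    field_simp
    ring
  rcases h.above with h1 | h1
  · refine ⟨o2.1 - o1.1, rfl, fun e he => ?_⟩
    have hv : 0 < chV m0 c e.2 := sub_pos.2 (h1 e he)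
    rw [key e he]
    unfold yy chY
    rw [abs_of_pos hv]
  · refine ⟨-(o2.1 - o1.1), abs_neg _, fun e he => ?_⟩
    have hv : chV m0 c e.2 < 0 := sub_neg.2 (h1 e he)
    rw [key e he]
    unfold yy chY
    rw [abs_of_neg hv]
    have : chV m0 c e.2 ≠ 0 := hv.ne
    field_simp

open Classical in
/-- **a used point is active** -/
theorem act (hlam : 0 < lam) (h : Mach K lam Q W I R c w0 m0 o1 o2 o3 F Wd δ) (hK : 0 ≤ K)
    {q : Pt} (hq : q ∈ F.image Prod.snd) : lam ≤ K ^ 2 * #{w ∈ W | q ∈ R w} := by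
  obtain ⟨e, he, rfl⟩ := mem_image.1 hq
  have hQ0 : (0 : ℝ) < #Q := by
    have : 0 < #Q := card_pos.2 ⟨e.2, (h.fl e he).qQ⟩
    exact_mod_cast this
  set A : Finset Pt := {a ∈ F.image Prod.fst | (a, e.2) ∈ F} with hA
  have h1 : (#Q : ℝ) ≤ K * lam * #A := by
    have := h.deg e he
    convert this
  set Ws : Finset ℕ := {w ∈ W | e.2 ∈ R w} with hWs
  have hmaps : ∀ a ∈ A, Wd (a, e.2) ∈ Ws := by
    intro a ha
    have h2 := h.fl _ (mem_filter.1 ha).2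
    exact mem_filter.2 ⟨h2.wW, h2.jq.2.1⟩
  have h3 : #A = ∑ w ∈ Ws, #(A.filter fun a => Wd (a, e.2) = w) :=
    card_eq_sum_card_fiberwise hmaps
  have h4 : ∀ w ∈ Ws, lam ^ 2 * (#(A.filter fun a => Wd (a, e.2) = w) : ℝ) ≤ K * #Q := by
    intro w _
    refine le_trans ?_ (h.flag e.2 w)
    apply mul_le_mul_of_nonneg_left _ (by positivity)
    norm_cast
    refine card_le_card fun a ha => ?_
    obtain ⟨a1, a2⟩ := mem_filter.1 ha
    obtain ⟨a3, a4⟩ := mem_filter.1 a1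
    exact mem_filter.2 ⟨a3, a4, a2⟩
  have h5 : lam ^ 2 * (#A : ℝ) ≤ #Ws * (K * #Q) := by
    rw [h3]
    push_cast
    rw [mul_sum, ← nsmul_eq_mul, ← sum_const]
    exact sum_le_sum h4
  have h6 : lam * (lam * #Q) ≤ (K ^ 2 * #Ws) * (lam * #Q) := by
    calc lam * (lam * #Q) ≤ lam * (lam * (K * lam * #A)) := by gcongr
      _ = K * lam * (lam ^ 2 * #A) := by ring
      _ ≤ K * lam * (#Ws * (K * #Q)) := mul_le_mul_of_nonneg_left h5 (by positivity)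
      _ = (K ^ 2 * #Ws) * (lam * #Q) := by ring
  exact le_of_mul_le_mul_right h6 (by positivity)

open Classical in
/-- **the flags of a set of used points** -/
theorem act_sum (hlam : 0 < lam) (h : Mach K lam Q W I R c w0 m0 o1 o2 o3 F Wd δ) (hK : 0 ≤ K)
    {S : Finset Pt} (hS : S ⊆ F.image Prod.snd) :
    lam * #S ≤ K ^ 2 * ∑ w ∈ W, (#(R w ∩ S) : ℝ) := by
  have h1 : ∑ w ∈ W, (#(R w ∩ S) : ℝ) = ∑ x ∈ S, (#{w ∈ W | x ∈ R w} : ℝ) := by
    exact_mod_cast Vale.Agent.P065.H537.sum_flags S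
  rw [h1, mul_sum, mul_comm, ← nsmul_eq_mul, ← sum_const]
  exact sum_le_sum fun x hx => act hlam h hK (hS hx)

end mach

end Vale.Agent.P065.UB.H992
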