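import Vale.Agent.P065.UB.GridU.Defs

/-!
# P065, upper bound, line U: `FrD` is stable under deleting flags (helper992)

`FrD.shrink`: a subfamily `E'` with at least `1 / D` of the pairs, at any resolution `del' ≤ del`
which bounds the normalised widths of the windows used by `E'`, gives `FrD` again.
-/

set_option autoImplicit false

namespace Vale.Agent.P065.UB.GridU

open Finset

variable {K K' lam m : ℝ} {Q : Finset (ℝ × ℝ)} {W : Finset ℕ} {lo hi : ℕ → ℝ}
  {R : ℕ → Finset (ℝ × ℝ)} {u1 u2 rho : ℝ} {A : Finset ℝ} {E E' : Finset (ℝ × (ℝ × ℝ))}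
  {win : ℝ → ℝ × ℝ → ℕ} {del del' : ℝ}

/-- `Base` with a larger constant -/
theorem Base.mono (h : Base K lam m Q W lo hi R) (hK : K ≤ K') : Base K' lam m Q W lo hi R where
  two := h.two.trans hK
  one := h.one
  hm := h.hm
  cardQ := by
    have h1 := h.one
    have h2 := h.hm
    refine h.cardQ.trans ?_
    have : 0 ≤ lam ^ 2 * m := by positivity
    nlinarith
  sgn := h.sgn
  lohi := h.lohi
  disj := h.disj
  cardW := h.cardW.trans (mul_le_mul_of_nonneg_right hK (by positivity))
  subR := h.subR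
  cardR := fun w hw => by
    have h1 := h.one
    have h2 := h.hm
    refine (h.cardR w hw).trans ?_
    have : 0 ≤ lam * m := by positivity
    nlinarith
  join := fun w hw M hM => by
    have h2 := h.hm
    have h1 := h.one
    refine (h.join w hw M hM).trans ?_
    apply mul_le_mul_of_nonneg_right _ (by positivity)
    exact mul_le_mul_of_nonneg_right hK (by positivity)
  star := fun a b g t a' b' g' r => by
    have h1 := h.one
    have h2 := h.hm
    refine (h.star a b g t a' b' g' r).trans ?_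
    exact mul_le_mul_of_nonneg_right hK (by positivity)

/-- monotonicity in `m`-multiples -/
theorem mul_m_mono {a : ℝ} (hK : K ≤ K') (hm : 0 ≤ m) (h : a ≤ K * m) : a ≤ K' * m :=
  h.trans (mul_le_mul_of_nonneg_right hK hm)

open Classical in
/-- `Fr` for a subfamily, if density and degrees are known -/
theorem Fr.sub (h : Fr K lam m Q W lo hi R u1 u2 rho A E win) (hK : K ≤ K') (hE : E' ⊆ E)
    (dens : lam ^ 3 * m ^ 2 ≤ K' * #E')
    (deg : ∀ e ∈ E', lam * m ≤ K' * #{u ∈ A | (u, e.2) ∈ E'}) :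
    Fr K' lam m Q W lo hi R u1 u2 rho A E' win := by
  have h1 := h.one
  have h2 := h.hm
  have hK0 : 0 ≤ K' := by linarith [h.two]
  exact
  { toBase := h.toBase.mono hK
    u12 := h.u12
    hrho := h.hrho
    cardA := by
      refine h.cardA.trans ?_
      have : 0 ≤ lam * m := by positivity
      nlinarith
    memA := fun e he => h.memA e (hE he)
    memQ := fun e he => h.memQ e (hE he)
    memW := fun e he => h.memW e (hE he)
    dens := dens
    deg := deg
    touch1 := by
      refine le_trans ?_ (h.touch1.trans (mul_le_mul_of_nonneg_right hK (by positivity)))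
      exact_mod_cast card_le_card (image_subset_image hE)
    touch2 := by
      refine le_trans ?_ (h.touch2.trans (mul_le_mul_of_nonneg_right hK (by positivity)))
      exact_mod_cast card_le_card (image_subset_image hE)
    touch := fun u hu => by
      refine le_trans ?_ ((h.touch u hu).trans (mul_le_mul_of_nonneg_right hK (by positivity)))
      norm_cast
      refine card_le_card fun w hw => ?_
      obtain ⟨a1, q, a2, a3⟩ := mem_filter.1 hw
      exact mem_filter.2 ⟨a1, q, hE a2, a3⟩
    flag := fun q hq w hw => by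
      refine le_trans ?_ (mul_m_mono hK h2.le (h.flag q hq w hw))
      norm_cast
      refine card_le_card fun u hu => ?_
      obtain ⟨a1, a2, a3⟩ := mem_filter.1 hu
      exact mem_filter.2 ⟨a1, hE a2, a3⟩
    p12 := fun e he => by
      refine le_trans ?_ (mul_m_mono hK h2.le (h.p12 e (hE he)))
      norm_cast
      exact card_le_card (filter_subset_filter _ (image_subset_image hE))
    p1a := fun e he => by
      refine le_trans ?_ (mul_m_mono hK h2.le (h.p1a e (hE he)))
      norm_cast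
      refine card_le_card fun q hq => ?_
      obtain ⟨a1, a2, a3⟩ := mem_filter.1 hq
      exact mem_filter.2 ⟨a1, hE a2, a3⟩
    p2a := fun e he => by
      refine le_trans ?_ (mul_m_mono hK h2.le (h.p2a e (hE he)))
      norm_cast
      refine card_le_card fun q hq => ?_
      obtain ⟨a1, a2, a3⟩ := mem_filter.1 hq
      exact mem_filter.2 ⟨a1, hE a2, a3⟩
    neA := h.neA
    mult := h.mult }

open Classical in
/-- the pairs at the points of large degree -/
noncomputable def prn (A : Finset ℝ) (E : Finset (ℝ × (ℝ × ℝ))) (t : ℝ) :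
    Finset (ℝ × (ℝ × ℝ)) := {e ∈ E | t ≤ #{u ∈ A | (u, e.2) ∈ E}}

open Classical in
theorem mem_prn {t : ℝ} {e : ℝ × (ℝ × ℝ)} :
    e ∈ prn A E t ↔ e ∈ E ∧ t ≤ #{u ∈ A | (u, e.2) ∈ E} := by
  unfold prn; rw [mem_filter]

open Classical in
/-- the degrees do not change -/
theorem deg_prn {t : ℝ} {e : ℝ × (ℝ × ℝ)} (he : e ∈ prn A E t) :
    ({u ∈ A | (u, e.2) ∈ prn A E t} : Finset ℝ) = {u ∈ A | (u, e.2) ∈ E} := by
  ext u
  rw [mem_filter, mem_filter, mem_prn]
  have := (mem_prn.1 he).2
  tauto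

open Classical in
/-- few pairs are lost -/
theorem card_prn {t : ℝ} (ht : 0 ≤ t) (hA : ∀ e ∈ E, e.1 ∈ A) (hQ : ∀ e ∈ E, e.2 ∈ Q) :
    (#E : ℝ) ≤ #(prn A E t) + #Q * t := by
  have h1 : E = prn A E t ∪ E.filter (fun e => ¬ t ≤ #{u ∈ A | (u, e.2) ∈ E}) := by
    unfold prn
    rw [filter_union_filter_not_eq]
  have h2 : (#(E.filter (fun e => ¬ t ≤ #{u ∈ A | (u, e.2) ∈ E})) : ℝ) ≤ #Q * t := by
    set F := E.filter (fun e => ¬ t ≤ #{u ∈ A | (u, e.2) ∈ E}) with hF
    have h3 : #F = ∑ q ∈ Q, #(F.filter fun e => e.2 = q) :=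
      card_eq_sum_card_fiberwise fun e he => hQ e (mem_filter.1 he).1
    rw [h3]
    push_cast
    rw [← nsmul_eq_mul, ← sum_const]
    apply sum_le_sum
    intro q hq
    rcases (F.filter fun e => e.2 = q).eq_empty_or_nonempty with h0 | ⟨e0, he0⟩
    · rw [h0]; simpa using ht
    · obtain ⟨he1, he2⟩ := mem_filter.1 he0
      have h4 := (mem_filter.1 he1).2
      rw [not_le, he2] at h4
      refine le_trans ?_ h4.le
      norm_cast
      refine card_le_card_of_injOn (fun e => e.1) ?_ ?_
      · intro e he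
        rw [mem_coe, mem_filter] at he
        have h5 := (mem_filter.1 he.1).1
        rw [mem_coe, mem_filter]
        refine ⟨hA e h5, ?_⟩
        rw [← he.2]
        exact h5
      · intro e he e' he' hee
        rw [mem_coe, mem_filter] at he he'
        exact Prod.ext hee (he.2.trans he'.2.symm)
  calc (#E : ℝ) = #(prn A E t ∪ E.filter (fun e => ¬ t ≤ #{u ∈ A | (u, e.2) ∈ E})) := by
        rw [← h1]
    _ ≤ #(prn A E t) + #(E.filter (fun e => ¬ t ≤ #{u ∈ A | (u, e.2) ∈ E})) := by
        exact_mod_cast card_union_le _ _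
    _ ≤ _ := by linarith

open Classical in
/-- **SHRINK** for `Fr` -/
theorem Fr.shrink (h : Fr K lam m Q W lo hi R u1 u2 rho A E win) (hE : E' ⊆ E) {D : ℝ}
    (hD : 1 ≤ D) (hc : (#E : ℝ) ≤ D * #E') :
    prn A E' (lam * m / (2 * K ^ 2 * D)) ⊆ E' ∧
      (#E' : ℝ) ≤ 2 * #(prn A E' (lam * m / (2 * K ^ 2 * D))) ∧
      Fr (2 * K ^ 2 * D) lam m Q W lo hi R u1 u2 rho A
        (prn A E' (lam * m / (2 * K ^ 2 * D))) win := by
  have h1 := h.one
  have h2 := h.hm
  have hK := h.two
  have hlam : 0 < lam := by linarith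
  have hK0 : 0 < K := by linarith
  have hT : 0 < 2 * K ^ 2 * D := by positivity
  set t := lam * m / (2 * K ^ 2 * D) with ht
  have ht0 : 0 ≤ t := by positivity
  have hsub : prn A E' t ⊆ E' := fun e he => (mem_prn.1 he).1
  have hdens : lam ^ 3 * m ^ 2 ≤ K * D * #E' := by
    calc lam ^ 3 * m ^ 2 ≤ K * #E := h.dens
      _ ≤ K * (D * #E') := mul_le_mul_of_nonneg_left hc hK0.le
      _ = K * D * #E' := by ring
  have hlost : (#Q : ℝ) * t ≤ #E' / 2 := by
    have e1 : (#Q : ℝ) * t ≤ (K * lam ^ 2 * m) * t := mul_le_mul_of_nonneg_right h.cardQ ht0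
    have e2 : (K * lam ^ 2 * m) * t = lam ^ 3 * m ^ 2 / (2 * K * D) := by
      rw [ht]; field_simp
    rw [e2] at e1
    refine e1.trans ?_
    rw [div_le_iff₀ (by positivity)]
    calc lam ^ 3 * m ^ 2 ≤ K * D * #E' := hdens
      _ = #E' / 2 * (2 * K * D) := by ring
  have hcard : (#E' : ℝ) ≤ 2 * #(prn A E' t) := by
    have := card_prn (A := A) (E := E') (Q := Q) ht0 (fun e he => h.memA e (hE he))
      (fun e he => h.memQ e (hE he))
    linarith
  have hKK : K ≤ 2 * K ^ 2 * D := by nlinarith [mul_le_mul hK hD (by norm_num) (by linarith)]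
  refine ⟨hsub, hcard, h.sub hKK (hsub.trans hE) ?_ ?_⟩
  · calc lam ^ 3 * m ^ 2 ≤ K * D * #E' := hdens
      _ ≤ K * D * (2 * #(prn A E' t)) := mul_le_mul_of_nonneg_left hcard (by positivity)
      _ = (2 * K * D) * #(prn A E' t) := by ring
      _ ≤ (2 * K ^ 2 * D) * #(prn A E' t) := by
        apply mul_le_mul_of_nonneg_right _ (Nat.cast_nonneg _)
        have : K ≤ K ^ 2 := by nlinarith
        nlinarith
  · intro e he
    rw [deg_prn he]
    have h3 := (mem_prn.1 he).2
    rw [ht, div_le_iff₀ hT] at h3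
    linarith

open Classical in
/-- **SHRINK** for `FrD` -/
theorem FrD.shrink (h : FrD K lam m Q W lo hi R u1 u2 rho A E win del) (hE : E' ⊆ E) {D : ℝ}
    (hD : 1 ≤ D) (hc : (#E : ℝ) ≤ D * #E') (hd0 : 0 < del') (hd : del' ≤ del)
    (w1 : ∀ e ∈ E', hi (win u1 e.2) - lo (win u1 e.2) ≤ del')
    (w2 : ∀ e ∈ E', hi (win u2 e.2) - lo (win u2 e.2) ≤ rho * del')
    (wa : ∀ e ∈ E', hi (win e.1 e.2) - lo (win e.1 e.2) ≤ |al u1 u2 e.1| * del') :
    ∃ E'' ⊆ E', (#E' : ℝ) ≤ 2 * #E'' ∧
      FrD (2 * K ^ 2 * D) lam m Q W lo hi R u1 u2 rho A E'' win del' := by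
  obtain ⟨hsub, hcard, hFr⟩ := h.toFr.shrink hE hD hc
  refine ⟨_, hsub, hcard, ?_⟩
  have h2 := h.hm
  have hK := h.two
  have hKK : K ≤ 2 * K ^ 2 * D := by nlinarith [mul_le_mul hK hD (by norm_num) (by linarith)]
  exact
  { toFr := hFr
    hdel := hd0
    w1 := fun e he => w1 e (hsub he)
    w2 := fun e he => w2 e (hsub he)
    wa := fun e he => wa e (hsub he)
    sq := fun x y => by
      refine le_trans ?_ (mul_m_mono hKK h2.le (h.sq x y))
      norm_cast
      refine card_le_card fun q hq => ?_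
      obtain ⟨a1, a2, a3⟩ := mem_filter.1 hq
      exact mem_filter.2 ⟨image_subset_image (hsub.trans hE) a1, a2.trans hd, a3.trans hd⟩ }

end Vale.Agent.P065.UB.GridU
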